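import Vale.Agent.P284Z.L.Spec
import Vale.Agent.P284Z.J.G1
import Vale.Agent.P284.H619.K.AlgD
import Vale.Agent.P284.H625.NS.Strt

/-!
# P284Z, L3: local lemmas
-/

set_option linter.all false

open scoped ContDiff Topology ComplexOrder ComplexConjugate ENNReal
open Filter Set Function Metric MeasureTheory

noncomputable section

namespace Vale.Agent.P284Z.L.S3

open Vale.Agent.P272.K Vale.Agent.P284.H608.K J Vale.Agent.P284.H619.K Vale.Agent.P284.H650

variable {n p : ℕ} {z : Cm n} {b b' : Cm n → Cm p}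

theorem lf_of {V : Type} [NormedAddCommGroup V] [NormedSpace ℝ V] {f : Cm n → V}
    (hb : AnalyticAt ℂ b z) (hs : Surjective (fderiv ℂ b z)) (hf : DifferentiableAt ℝ f z)
    (h : ∀ᶠ q : Cm n × Cm n in 𝓝 (z, z), b q.1 = b q.2 → f q.1 = f q.2) : Lf b f z := by
  obtain ⟨s, -, χ, h1, -, -, h2, h3, -, -, h4⟩ := Vale.Agent.P284.H625.exists_straight hb hs
  have e0 : s (b z - b z) = 0 := by rw [sub_self, map_zero]
  have e1 : AnalyticAt ℂ (fun t => s (t - b z)) (b z) :=
    (s.analyticAt _).comp (analyticAt_id.sub analyticAt_const)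
  have e2 : AnalyticAt ℂ (fun t => χ (s (t - b z))) (b z) :=
    AnalyticAt.fun_comp (by rw [e0]; exact h2) e1
  have e3 : χ (s (b z - b z)) = z := by rw [e0, h3]
  refine ⟨fun t => f (χ (s (t - b z))), DifferentiableAt.fun_comp' _ (by rw [e3]; exact hf)
    (e2.differentiableAt.restrictScalars ℝ), ?_⟩
  have t1 : Tendsto (fun w => s (b w - b z)) (𝓝 z) (𝓝 0) :=
    e0 ▸ e1.continuousAt.tendsto.comp hb.continuousAt
  have t2 : Tendsto (fun w => (w, χ (s (b w - b z)))) (𝓝 z) (𝓝 (z, z)) :=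
    tendsto_id.prodMk_nhds (by
      have := e2.continuousAt.tendsto.comp hb.continuousAt
      rwa [e3] at this)
  filter_upwards [t1.eventually h4, t2.eventually h] with w k1 k2
  exact k2 (by rw [k1, h1, add_sub_cancel])

theorem Lf.congr {V : Type} [NormedAddCommGroup V] [NormedSpace ℝ V] {f f' : Cm n → V}
    (h : Lf b f z) (e : b' =ᶠ[𝓝 z] b) (e' : f' =ᶠ[𝓝 z] f) : Lf b' f' z := by
  obtain ⟨g, h1, h2⟩ := h
  refine ⟨g, e.self_of_nhds ▸ h1, ?_⟩
  filter_upwards [h2, e, e'] with w k1 k2 k3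
  rw [k3, k2, k1]

theorem dF_congr (e : b' =ᶠ[𝓝 z] b) : dF b' z = dF b z := by rw [dF, dF, e.fderiv_eq]

theorem bb_congr {g g' : Cm n → ℂ} (e : g' =ᶠ[𝓝 z] g) : bb g' z = bb g z := by
  simp only [bb, INT.dzb_congr e]

theorem hn_tr (h1 : K1Stmt) {T : Cm n → Cm n} (hT : AnalyticAt ℂ T z)
    (hi : Bijective (fderiv ℂ T z)) (hb : AnalyticAt ℂ b (T z)) {w : Mx n} (hw : w.PosDef) :
    hn (pb (jm T z) w) (dF (fun y => b (T y)) z) (dF (fun y => b (T y)) z) =
      hn w (dF b (T z)) (dF b (T z)) := by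
  have e1 : dF (fun y => b (T y)) z = (dF b (T z)).compContinuousLinearMap (fderiv ℂ T z) := by
    rw [dF, fderiv_fun_comp z hb.differentiableAt hT.differentiableAt]
    rfl
  have e2 : jm T z = LinearMap.toMatrix' (fderiv ℂ T z : Cm n →ₗ[ℂ] Cm n) := by
    ext i j
    rw [LinearMap.toMatrix'_apply]
    rfl
  rw [e1, pb, e2]
  exact h1.pull n p w _ hw hi _ _

theorem cont_det {w : Cm n → Mx n} (hw : ContinuousAt w z) :
    ContinuousAt (fun y => (w y).det.re) z :=
  (Complex.continuous_re.comp (Continuous.matrix_det continuous_id)).continuousAt.comp hw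

theorem cont_hn {w : Cm n → Mx n} (hw : ContinuousAt w z) (hp : (w z).PosDef)
    (hb : AnalyticAt ℂ b z) : ContinuousAt (fun y => (hn (w y) (dF b y) (dF b y)).re) z := by
  have h1 : ContinuousAt (fun y => (w y)⁻¹) z :=
    (continuousAt_matrix_inv _ (by
      rw [Ring.inverse_eq_inv']
      exact continuousAt_inv₀ hp.det_pos.ne')).comp hw
  have h2 : ∀ s, ContinuousAt (fun y => ev (dF b y) s) z := fun s => by
    simp only [ev, dF_apply, dd]
    refine (Continuous.matrix_det continuous_id).continuousAt.comp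
      (f := fun y => Matrix.of fun i j => fderiv ℂ b y (Pi.single (s j) 1) i) ?_
    exact continuousAt_pi.2 fun i => continuousAt_pi.2 fun j => (continuous_apply i).continuousAt.comp
      (hb.fderiv.continuousAt.clm_apply continuousAt_const)
  refine Complex.continuous_re.continuousAt.comp (continuousAt_const.mul ?_)
  refine tendsto_finsetSum _ fun s _ => tendsto_finsetSum _ fun t _ => ?_
  exact ((h2 s).mul (Complex.continuous_conj.continuousAt.comp (h2 t))).mul
    (tendsto_finset_prod _ fun i _ => continuousAt_pi.1 (continuousAt_pi.1 h1 (t i)) (s i))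

/-- the values of a form are controlled by its norm -/
theorem low_pt (n p : ℕ) {c : ℝ} (hc : 0 < c) : ∃ K : ℝ, 0 ≤ K ∧ ∀ h : Mx n, h.PosDef →
    ((c : ℂ) • h - 1).PosSemidef → ∀ (A : Af n p) (ξ : Fin p → Cm n), ‖ξ‖ ≤ 1 →
      ‖A ξ‖ ^ 2 ≤ K * ((hn h A A).re * h.det.re) := by
  refine ⟨n ^ p * ((p.factorial : ℝ)⁻¹ * c ^ p * c⁻¹ ^ n)⁻¹, by positivity,
    fun h hh h1 A ξ hξ => ?_⟩
  have hc' : (c : ℂ) ≠ 0 := Complex.ofReal_ne_zero.2 hc.ne'
  have h2 : (((c⁻¹ : ℝ) : ℂ) • (1 : Mx n)).PosDef :=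
    Matrix.PosDef.one.smul (Complex.zero_lt_real.2 (inv_pos.2 hc))
  have h3 := hn_mono_re h2 hh (by
    have := psd_smul h1 (inv_pos.2 hc).le
    rwa [smul_sub, smul_smul, ← Complex.ofReal_mul, inv_mul_cancel₀ hc.ne', Complex.ofReal_one,
      one_smul] at this) A
  have h4 := hn_frame (w := ((c⁻¹ : ℝ) : ℂ) • (1 : Mx n)) 1 (fun _ => (c : ℂ)) (by
    refine Matrix.inv_eq_right_inv ?_
    rw [Matrix.conjTranspose_one, Matrix.one_mul, Matrix.mul_one, ← Matrix.smul_one_eq_diagonal,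
      Matrix.smul_mul, Matrix.one_mul, smul_smul, ← Complex.ofReal_mul, inv_mul_cancel₀ hc.ne',
      Complex.ofReal_one, one_smul]) A A
  have h5 : ∀ κ : Fin p → Fin n, (A fun i => fv 1 (κ i)) = ev A κ := fun κ => by
    unfold ev
    congr 1
    funext i a
    simp [fv, Matrix.one_apply, Pi.single_apply]
  simp only [h5, mul_assoc, Complex.mul_conj, Complex.normSq_eq_norm_sq, Finset.prod_const,
    Finset.card_univ, Fintype.card_fin, ← Finset.mul_sum] at h4
  rw [h4, Matrix.det_smul, Matrix.det_one, mul_one, Fintype.card_fin, ← Complex.ofReal_pow,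
    ← Complex.ofReal_pow, ← Complex.ofReal_sum, ← Complex.ofReal_natCast, ← Complex.ofReal_inv,
    ← Complex.ofReal_mul, ← Complex.ofReal_mul, Complex.ofReal_re, Complex.ofReal_re] at h3
  have h6 : ‖A ξ‖ ≤ ∑ κ, ‖ev A κ‖ := by
    rw [map_expand]
    refine (norm_sum_le _ _).trans (Finset.sum_le_sum fun κ _ => ?_)
    rw [norm_mul, norm_prod]
    refine mul_le_of_le_one_left (norm_nonneg _) (Finset.prod_le_one (fun _ _ => norm_nonneg _)
      fun i _ => ((norm_le_pi_norm (ξ i) (κ i)).trans (norm_le_pi_norm ξ i)).trans hξ)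
  have h7 : (∑ κ, ‖ev A κ‖) ^ 2 ≤ n ^ p * ∑ κ, ‖ev A κ‖ ^ 2 := by
    simpa using sq_sum_le_card_mul_sum_sq (s := Finset.univ) (f := fun κ => ‖ev A κ‖)
  refine ((pow_le_pow_left₀ (norm_nonneg _) h6 2).trans h7).trans ?_
  rw [mul_assoc]
  refine mul_le_mul_of_nonneg_left ?_ (by positivity)
  rw [le_inv_mul_iff₀ (by positivity)]
  linarith

/-- the cut-off function -/
def th (t : ℝ) : ℝ := Real.smoothTransition (2 - t)

theorem th_sm : ContDiff ℝ ∞ th :=
  Real.smoothTransition.contDiff.comp (contDiff_const.sub contDiff_id)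

theorem th_one {t : ℝ} (h : t ≤ 1) : th t = 1 := Real.smoothTransition.one_of_one_le (by linarith)

theorem th_zero {t : ℝ} (h : 2 ≤ t) : th t = 0 := Real.smoothTransition.zero_of_nonpos (by linarith)

theorem th_bd : ∃ L : ℝ, ∀ t, deriv th t ^ 2 ≤ L := by
  obtain ⟨L, hL⟩ := (isCompact_Icc (a := (1 : ℝ)) (b := 2)).bddAbove_image
    ((th_sm.continuous_deriv (by simp)).pow 2).continuousOn
  refine ⟨max L 0, fun t => ?_⟩
  rcases lt_or_ge t 1 with h | h
  · have : th =ᶠ[𝓝 t] fun _ => 1 := (gt_mem_nhds h).mono fun _ k => th_one k.le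
    simp [this.deriv_eq]
  rcases lt_or_ge 2 t with h' | h'
  · have : th =ᶠ[𝓝 t] fun _ => 0 := (lt_mem_nhds h').mono fun _ k => th_zero k.le
    simp [this.deriv_eq]
  exact le_max_of_le_left (hL ⟨t, ⟨h, h'⟩, rfl⟩)

theorem cut_grad {L K m : ℝ} (hL : ∀ t, deriv th t ^ 2 ≤ L) {η : Cm n → ℝ} {χ : Cm n → ℝ}
    (hη : DifferentiableAt ℝ η z) (e : χ =ᶠ[𝓝 z] fun y => th (η y / m)) {w : Mx n}
    (h : ((K : ℂ) • w - gg η η z).PosSemidef) :
    (((L / m ^ 2 * K : ℝ) : ℂ) • w - Matrix.of fun j k => dz j (fun y => (χ y : ℂ)) z *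
      conj (dz k (fun y => (χ y : ℂ)) z)).PosSemidef := by
  have e' : (fun y => (χ y : ℂ)) =ᶠ[𝓝 z] fun y => (th (η y / m) : ℂ) :=
    e.mono fun _ k => congrArg _ k
  have h1 : HasDerivAt (fun t => th (t / m)) (deriv th (η z / m) * (1 / m)) (η z) :=
    (th_sm.differentiable (by simp) _).hasDerivAt.comp (η z) ((hasDerivAt_id _).div_const m)
  have h2 : (Matrix.of fun j k => dz j (fun y => (χ y : ℂ)) z *
      conj (dz k (fun y => (χ y : ℂ)) z)) = gg (fun y => th (η y / m)) (fun y => th (η y / m)) z := by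
    ext j k
    simp only [INT.dz_congr e', gg, rk1, dzv, dzbv, AMP.dzb_real_eq, Matrix.of_apply]
  have h3 : 0 ≤ L := (sq_nonneg _).trans (hL 0)
  rw [h2, gg_comp_left (φ := fun t => th (t / m)) h1.differentiableAt hη,
    gg_comp_right (φ := fun t => th (t / m)) h1.differentiableAt hη, h1.deriv]
  convert (psd_smul h (c := L / m ^ 2) (by positivity)).add (psd_smul (gg_psd η z)
    (c := (L - deriv th (η z / m) ^ 2) / m ^ 2) (div_nonneg (sub_nonneg.2 (hL _)) (sq_nonneg _)))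
    using 1
  ext j k
  simp only [Matrix.sub_apply, Matrix.add_apply, Matrix.smul_apply, smul_eq_mul]
  push_cast
  ring

end Vale.Agent.P284Z.L.S3
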