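import Vale.Agent.P284Z.L.S3.A
import Vale.Agent.P284Z.F0.Cov.Ch

/-!
# P284Z, L3: the open set `O` as a manifold with framed charts
-/

set_option linter.all false

open scoped ContDiff Topology ComplexOrder ComplexConjugate ENNReal
open Filter Set Function Metric MeasureTheory

noncomputable section

namespace Vale.Agent.P284Z.L.S3

open Vale.Agent.P272.K Vale.Agent.P284.H608.K J Vale.Agent.P284.H650

variable {n p : ℕ} {Γ E : Type} [Group Γ] [TopologicalSpace E] [MulAction Γ E] {C : Cov n Γ E}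
  {O : Set E} {hO : IsOpen O} {y₀ : O} {i j : Γ × C.I} {z : Cm n} {x : O}

variable (C hO y₀) in
open Classical in
/-- the charts of `O` -/
def ech (i : Γ × C.I) : OpenPartialHomeomorph O (Cm n) where
  toFun y := C.co i.1 i.2 y
  invFun z := if h : C.pt i.1 i.2 z ∈ O then ⟨_, h⟩ else y₀
  source := {y | y.1 ∈ (C.ch i.1 i.2).source}
  target := {z ∈ C.B 4 i.2 | C.pt i.1 i.2 z ∈ O}
  map_source' y h := ⟨C.co_mem h, (C.pt_co h).symm ▸ y.2⟩
  map_target' z h := by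
    rw [dif_pos h.2]
    exact C.pt_mem h.1 _
  left_inv' y h := by
    rw [dif_pos ((C.pt_co h).symm ▸ y.2)]
    exact Subtype.ext (C.pt_co h)
  right_inv' z h := by
    rw [dif_pos h.2]
    exact C.co_pt h.1 _
  open_source := (C.ch i.1 i.2).open_source.preimage continuous_subtype_val
  open_target := C.isOpen_preimage_pt _ _ hO
  continuousOn_toFun := (C.ch i.1 i.2).continuousOn.comp continuous_subtype_val.continuousOn
    fun _ h => h
  continuousOn_invFun := Topology.IsInducing.subtypeVal.continuousOn_iff.2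
    (((C.continuousOn_pt i.1 i.2).mono fun _ h => h.1).congr fun z h =>
      congrArg Subtype.val (dif_pos h.2))

theorem symm_val (h : C.pt i.1 i.2 z ∈ O) : ((ech C hO y₀ i).symm z).1 = C.pt i.1 i.2 z :=
  congrArg Subtype.val (dif_pos h)

theorem ev_symm {V : Type} (h : z ∈ (ech C hO y₀ i).target) (F : E → V) :
    (fun w => F ((ech C hO y₀ i).symm w)) =ᶠ[𝓝 z] fun w => F (C.pt i.1 i.2 w) :=
  mem_of_superset ((ech C hO y₀ i).open_target.mem_nhds h) fun _ k => congrArg F (symm_val k.2)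

theorem ov (hz : z ∈ (ech C hO y₀ i).target)
    (h : (ech C hO y₀ i).symm z ∈ (ech C hO y₀ j).source) : C.Ov (j.1⁻¹ * i.1) i.2 j.2 z :=
  ⟨hz.1, by rw [← C.smul_pt, ← symm_val (hO := hO) (y₀ := y₀) hz.2]; exact h⟩

theorem tr_ev (hz : z ∈ (ech C hO y₀ i).target) (j : Γ × C.I) :
    (fun w => ech C hO y₀ j ((ech C hO y₀ i).symm w)) =ᶠ[𝓝 z] C.tr (j.1⁻¹ * i.1) i.2 j.2 :=
  (ev_symm hz (C.co j.1 j.2)).mono fun _ k => k.trans (C.co_pt_eq _ _ _ _ _)

theorem fm_ch {H : C.Fm} (hH : C.FmAt H x) (hi : x ∈ (ech C hO y₀ i).source)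
    (hj : x ∈ (ech C hO y₀ j).source) : H i.1 i.2 (ech C hO y₀ i x) =
      pb (jacM (ech C hO y₀ i) (ech C hO y₀ j) x) (H j.1 j.2 (ech C hO y₀ j x)) := by
  have h1 := (ech C hO y₀ i).map_source hi
  have h2 := ov h1 (j := j) (by rwa [(ech C hO y₀ i).left_inv hi])
  have h3 := tr_ev h1 j
  have h4 := hH j.1 _ i.2 j.2 _ h2 (by rw [mul_inv_cancel_left]; exact C.pt_co hi)
  have h6 := h3.self_of_nhds
  simp only [(ech C hO y₀ i).left_inv hi] at h6
  rw [mul_inv_cancel_left, ← h6] at h4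
  rw [h4]
  congr 1
  ext a b
  have h5 := (C.an_tr h2).differentiableAt
  rw [jacM, Matrix.of_apply, INT.dz_congr (h3.mono fun _ k => congrFun k a),
    INT.dz_of_holo (differentiableAt_pi.1 h5 a), fderiv_apply h5]
  rfl

/-! ### functions given in the charts -/

variable (C) in
/-- the function on `E` given by the family `G` -/
def gl (G : Γ → C.I → Cm n → ℝ) (y : E) : ℝ := G (C.ch₀ y).1 (C.ch₀ y).2.1 (C.ch₀ y).2.2

variable (C) in
/-- the family `G` is a continuous function on `O` -/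
structure Fn (G : Γ → C.I → Cm n → ℝ) (O : Set E) : Prop where
  ch : ∀ γ g a b z, C.Ov g a b z → C.pt (γ * g) a z ∈ O → G (γ * g) a z = G γ b (C.tr g a b z)
  cont : ∀ γ a, ∀ z ∈ C.B 4 a, C.pt γ a z ∈ O → ContinuousAt (G γ a) z

theorem Fn.pt {G : Γ → C.I → Cm n → ℝ} (h : Fn C G O) {γ : Γ} {a : C.I} (hz : z ∈ C.B 4 a)
    (hy : C.pt γ a z ∈ O) : gl C G (C.pt γ a z) = G γ a z := by
  obtain ⟨h1, h2⟩ := JGx.ch₀_spec (C := C) (C.pt γ a z)
  obtain ⟨h3, h4⟩ := C.Ov_of_eq hz h1 h2.symm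
  have := h.ch (C.ch₀ (C.pt γ a z)).1 _ a _ z h3 (by rwa [mul_inv_cancel_left])
  rw [mul_inv_cancel_left, h4] at this
  exact this.symm

theorem Fn.continuous {G : Γ → C.I → Cm n → ℝ} (h : Fn C G O) (hO : IsOpen O) :
    Continuous fun y : O => gl C G y := continuous_iff_continuousAt.2 fun y => by
  obtain ⟨γ, a, z, hz, e⟩ := C.exists_pt y
  have hz := C.B14 hz
  have hy : C.pt γ a z ∈ O := e ▸ y.2
  refine ContinuousAt.comp (g := gl C G) ?_ continuous_subtype_val.continuousAt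
  rw [e]
  exact JGx.contAt hz ((h.cont γ a z hz hy).congr (mem_of_superset
    ((C.isOpen_preimage_pt γ a hO).mem_nhds ⟨hz, hy⟩) fun _ k => (h.pt k.1 k.2).symm))

theorem cf_cont {H : C.Fm} (h : C.CFOn H O) {γ : Γ} {a : C.I} (hz : z ∈ C.B 4 a)
    (hy : C.pt γ a z ∈ O) : ContinuousAt (H γ a) z :=
  continuousAt_pi.2 fun j => continuousAt_pi.2 fun k => ((h.2 γ a).sm z ⟨hz, hy⟩ j k).continuousAt

theorem det_pos {M : Mx n} (h : M.PosDef) : 0 < M.det.re := (Complex.lt_def.1 h.det_pos).1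

/-! ### the structure `KA` -/

variable [MeasurableSpace E]

variable (C O) in
/-- a Kähler metric on `O` and its volume measure -/
structure Pre where
  hO : IsOpen O
  y₀ : O
  w : C.Fm
  cf : C.CFOn w O
  pos : ∀ γ a, ∀ z ∈ C.B 4 a, C.pt γ a z ∈ O → (w γ a z).PosDef
  μ : Measure O
  hμ : ∀ i (f : O → ℝ≥0∞), Measurable f → (∀ x, x ∉ (ech C hO y₀ i).source → f x = 0) →
    ∫⁻ x, f x ∂μ = ∫⁻ z in (ech C hO y₀ i).target,
      f ((ech C hO y₀ i).symm z) * ENNReal.ofReal (w i.1 i.2 z).det.re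

theorem exists_pre [T2Space E] [BorelSpace E] (hM : MeasStmt) (hO : IsOpen O) (y₀ : O)
    [SigmaCompactSpace O] {w : C.Fm} (cf : C.CFOn w O)
    (pos : ∀ γ a, ∀ z ∈ C.B 4 a, C.pt γ a z ∈ O → (w γ a z).PosDef) : ∃ P : Pre C O, P.w = w := by
  obtain ⟨μ, hμ⟩ := hM n O (Γ × C.I) (ech C hO y₀) (fun i z => (w i.1 i.2 z).det.re)
    (fun x => by
      obtain ⟨γ, a, z, hz, e⟩ := C.exists_pt x
      exact ⟨(γ, a), show x.1 ∈ (C.ch γ a).source from e ▸ C.pt_mem (C.B14 hz) γ⟩)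
    (fun i j z hz h => (C.an_tr (ov hz h)).congr (tr_ev hz j).symm)
    (fun i z hz => (cont_det (cf_cont cf hz.1 hz.2)).continuousWithinAt)
    (fun i z hz => det_pos (pos _ _ z hz.1 hz.2)) fun i j x hi hj => by
      rw [fm_ch (cf.1 x x.2) hi hj, JGx.det_pb, Complex.re_ofReal_mul]
  exact ⟨⟨hO, y₀, w, cf, pos, μ, hμ⟩, rfl⟩

namespace Pre
variable (P : Pre C O)

/-- the trivial bundle with the weight `ψ` -/
def K (ψ : E → ℝ) (hψ : ∀ y ∈ O, C.SmAt ψ y) : KA n O where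
  I := Γ × C.I
  e := ech C P.hO P.y₀
  w i := P.w i.1 i.2
  φ i z := ψ (C.pt i.1 i.2 z)
  a _ _ _ := 1
  μ := P.μ
  cover x := by
    obtain ⟨γ, a, z, hz, e⟩ := C.exists_pt x
    exact ⟨(γ, a), show x.1 ∈ (C.ch γ a).source from e ▸ C.pt_mem (C.B14 hz) γ⟩
  wsm i := (P.cf.2 i.1 i.2).sm
  wpos i z hz := P.pos _ _ z hz.1 hz.2
  wcl i z hz j k l := (P.cf.2 i.1 i.2).cl z hz l j k
  φsm i z hz := hψ _ hz.2 _ _ z hz.1 rfl
  hol i j z hz h := (C.an_tr (ov hz h)).congr (tr_ev hz j).symm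
  wch i j x hi hj := fm_ch (P.cf.1 x x.2) hi hj
  ahol _ _ _ _ _ := analyticAt_const
  coc _ _ _ _ _ _ _ := (one_mul _).symm
  aself _ _ _ := rfl
  φch i j x hi hj := by
    rw [norm_one, one_pow, mul_one]
    exact congrArg (fun y => Real.exp (-ψ y)) ((C.pt_co hi).trans (C.pt_co hj).symm)
  hμ := P.hμ

theorem cut (ψ : E → ℝ) (hψ : ∀ y ∈ O, C.SmAt ψ y) {η : E → ℝ} (h1 : ∀ y ∈ O, C.SmAt η y)
    (h2 : ∀ c, IsCompact {y ∈ O | η y ≤ c}) {K : ℝ} (h3 : Psd C ((K : ℂ) • P.w - C.gg η η) O) :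
    Nonempty (P.K ψ hψ).Cut := by
  obtain ⟨L, hL⟩ := th_bd
  refine ⟨⟨fun ν x => th (η x / (ν + 1)), fun ν => L / (ν + 1) ^ 2 * K, fun ν i z hz => ?_,
    fun ν => ⟨{x | η x ≤ 2 * (ν + 1)}, ?_, fun x hx => th_zero ?_⟩,
    fun _ _ => Real.smoothTransition.nonneg _, fun ν x => ?_,
    fun _ _ => Real.smoothTransition.le_one _, fun x => ?_, fun ν i z hz => ?_, ?_⟩⟩
  · exact (th_sm.contDiffAt.comp z ((h1 _ hz.2 _ _ z hz.1 rfl).div_const _)).congr_of_eventuallyEq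
      (ev_symm (hO := P.hO) hz fun y => th (η y / (ν + 1)))
  · rw [Subtype.isCompact_iff]
    convert h2 (2 * (ν + 1))
    ext y
    simp [and_comm]
  · rw [le_div_iff₀ (by positivity)]
    exact (not_le.1 hx).le
  · rcases le_total (η x) 0 with h | h
    · exact (Real.smoothTransition.le_one _).trans (th_one ((div_nonpos_of_nonpos_of_nonneg h
        (by positivity)).trans zero_le_one)).ge
    · refine Real.smoothTransition.monotone (sub_le_sub_left ?_ 2)
      exact div_le_div_of_nonneg_left h (by positivity) (by push_cast; linarith)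
  · have h4 : ∀ᶠ x' : O in 𝓝 x, η x' < η x + 1 :=
      ((JGx.sm_cont (h1 x x.2)).comp continuous_subtype_val.continuousAt).eventually
        (gt_mem_nhds (lt_add_one _))
    filter_upwards [tendsto_natCast_atTop_atTop.eventually_ge_atTop (η x)] with ν hν
    refine h4.mono fun x' h => th_one ?_
    rw [div_le_one (by positivity)]
    linarith
  · exact cut_grad hL ((h1 _ hz.2 _ _ z hz.1 rfl).differentiableAt (by simp))
      (ev_symm (hO := P.hO) hz fun y => th (η y / (ν + 1))) (h3 _ _ z hz.1 hz.2)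
  · have := ((tendsto_one_div_add_atTop_nhds_zero_nat (𝕜 := ℝ)).pow 2).const_mul (L * K)
    simp only [ne_eq, OfNat.ofNat_ne_zero, not_false_eq_true, zero_pow, mul_zero] at this
    exact this.congr fun ν => by rw [div_pow]; ring

/-- a piece of a chart -/
def pc (U : Set E) (k : ℝ) (γ : Γ) (a : C.I) : Set O := {y | y.1 ∈ U ∧ y.1 ∈ C.pt γ a '' C.B k a}

theorem pc_meas [BorelSpace E] {U : Set E} (hU : IsOpen U) {k : ℝ} (hk : k ≤ 4) (γ : Γ) (a : C.I) :
    MeasurableSet (pc (C := C) (O := O) U k γ a) :=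
  ((hU.inter (C.isOpen_image_pt γ (C.isOpen_B k a) (C.B_mono hk a))).preimage
    continuous_subtype_val).measurableSet

theorem lint [BorelSpace E] {U : Set E} (hU : IsOpen U) (hs : U ⊆ O) {k : ℝ} (hk : k ≤ 4) (γ : Γ)
    (a : C.I) {f : E → ℝ≥0∞} (hf : Measurable fun y : O => f y) :
    ∫⁻ y in pc U k γ a, f y ∂P.μ = ∫⁻ z in {z ∈ C.B k a | C.pt γ a z ∈ U},
      f (C.pt γ a z) * ENNReal.ofReal (P.w γ a z).det.re := by
  have h1 := pc_meas (C := C) (O := O) hU hk γ a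
  have h2 : {z ∈ C.B k a | C.pt γ a z ∈ U} ⊆ (ech C P.hO P.y₀ (γ, a)).target :=
    fun z hz => ⟨C.B_mono hk a hz.1, hs hz.2⟩
  have h3 : IsOpen {z ∈ C.B k a | C.pt γ a z ∈ U} :=
    ((C.continuousOn_pt γ a).mono (C.B_mono hk a)).isOpen_inter_preimage (C.isOpen_B k a) hU
  have h5 : ∀ x ∈ pc (C := C) (O := O) U k γ a, x ∈ (ech C P.hO P.y₀ (γ, a)).source :=
    fun x ⟨_, z, k1, k2⟩ => show x.1 ∈ (C.ch γ a).source from k2 ▸ C.pt_mem (C.B_mono hk a k1) γ
  rw [← lintegral_indicator h1, P.hμ (γ, a) _ (hf.indicator h1) fun x hx =>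
    indicator_of_notMem (fun k => hx (h5 x k)) _, ← inter_eq_left.2 h2,
    ← Measure.restrict_restrict h3.measurableSet, ← lintegral_indicator h3.measurableSet]
  refine setLIntegral_congr_fun (ech C P.hO P.y₀ (γ, a)).open_target.measurableSet fun z hz => ?_
  have h4 := symm_val (hO := P.hO) (y₀ := P.y₀) hz.2
  by_cases h : z ∈ {z ∈ C.B k a | C.pt γ a z ∈ U}
  · beta_reduce
    rw [indicator_of_mem h, indicator_of_mem (by exact ⟨h4 ▸ h.2, z, h.1, h4.symm⟩), h4]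
  · beta_reduce
    rw [indicator_of_notMem h, indicator_of_notMem, zero_mul]
    rintro ⟨k1, w, k2, k3⟩
    rw [h4] at k1 k3
    exact h ⟨C.injOn_pt γ a (C.B_mono hk a k2) hz.1 k3 ▸ k2, k1⟩

end Pre

end Vale.Agent.P284Z.L.S3
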